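import Mathlib

open MeasureTheory
open scoped ENNReal Pointwise

namespace P074

/-! ### Layer cake for `ℝ≥0∞`-valued functions -/

lemma volume_lt_coe (a : ℝ≥0∞) : volume {t : ℝ | 0 < t ∧ ENNReal.ofReal t < a} = a := by
  rcases eq_or_ne a ∞ with rfl | ha
  · have : {t : ℝ | 0 < t ∧ ENNReal.ofReal t < ∞} = Set.Ioi 0 := by
      ext t; simp
    rw [this, Real.volume_Ioi]
  · have : {t : ℝ | 0 < t ∧ ENNReal.ofReal t < a} = Set.Ioo 0 a.toReal := by
      ext t
      simp only [Set.mem_ofPred_eq, Set.mem_Ioo]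
      refine and_congr_right fun ht => ?_
      rw [ENNReal.ofReal_lt_iff_lt_toReal ht.le ha]
    rw [this, Real.volume_Ioo, sub_zero, ENNReal.ofReal_toReal ha]

lemma layercake {X : Type*} [MeasurableSpace X] (μ : Measure X) [SFinite μ] (f : X → ℝ≥0∞)
    (hf : Measurable f) :
    ∫⁻ x, f x ∂μ = ∫⁻ t in Set.Ioi (0 : ℝ), μ {x | ENNReal.ofReal t < f x} := by
  have hmeas : MeasurableSet {p : X × ℝ | 0 < p.2 ∧ ENNReal.ofReal p.2 < f p.1} := by
    refine MeasurableSet.inter (measurableSet_lt measurable_const measurable_snd) ?_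
    exact measurableSet_lt (ENNReal.measurable_ofReal.comp measurable_snd) (hf.comp measurable_fst)
  have h1 : ∀ x, f x = ∫⁻ t : ℝ, {p : X × ℝ | 0 < p.2 ∧ ENNReal.ofReal p.2 < f p.1}.indicator
      (fun _ => (1 : ℝ≥0∞)) (x, t) := by
    intro x
    have h2 : (fun t : ℝ => {p : X × ℝ | 0 < p.2 ∧ ENNReal.ofReal p.2 < f p.1}.indicator
      (fun _ => (1 : ℝ≥0∞)) (x, t)) = {t : ℝ | 0 < t ∧ ENNReal.ofReal t < f x}.indicator 1 := by
      ext t
      simp only [Set.indicator, Set.mem_ofPred_eq, Pi.one_apply]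
    rw [h2, lintegral_indicator_one, volume_lt_coe]
    exact (measurable_prodMk_left (x := x)) hmeas
  calc ∫⁻ x, f x ∂μ = ∫⁻ x, (∫⁻ t : ℝ, {p : X × ℝ | 0 < p.2 ∧ ENNReal.ofReal p.2 < f p.1}.indicator
      (fun _ => (1 : ℝ≥0∞)) (x, t)) ∂μ := lintegral_congr h1
    _ = ∫⁻ t : ℝ, (∫⁻ x, {p : X × ℝ | 0 < p.2 ∧ ENNReal.ofReal p.2 < f p.1}.indicator
      (fun _ => (1 : ℝ≥0∞)) (x, t) ∂μ) := by
        rw [lintegral_lintegral_swap]
        exact (measurable_const.indicator hmeas).aemeasurable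
    _ = ∫⁻ t in Set.Ioi (0 : ℝ), μ {x | ENNReal.ofReal t < f x} := by
        rw [← lintegral_indicator measurableSet_Ioi]
        refine lintegral_congr fun t => ?_
        by_cases ht : 0 < t
        · rw [Set.indicator_of_mem (show t ∈ Set.Ioi (0 : ℝ) from ht)]
          have h3 : (fun x => {p : X × ℝ | 0 < p.2 ∧ ENNReal.ofReal p.2 < f p.1}.indicator
            (fun _ => (1 : ℝ≥0∞)) (x, t)) = {x | ENNReal.ofReal t < f x}.indicator 1 := by
            ext x
            simp only [Set.indicator, Set.mem_ofPred_eq, Pi.one_apply, ht, true_and]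
          rw [h3, lintegral_indicator_one]
          exact measurableSet_lt measurable_const hf
        · rw [Set.indicator_of_notMem (show t ∉ Set.Ioi (0 : ℝ) from ht)]
          have h3 : (fun x => {p : X × ℝ | 0 < p.2 ∧ ENNReal.ofReal p.2 < f p.1}.indicator
            (fun _ => (1 : ℝ≥0∞)) (x, t)) = fun _ => 0 := by
            ext x
            simp only [Set.indicator, Set.mem_ofPred_eq, ht, false_and, if_false]
          rw [h3, lintegral_zero]

/-! ### One-dimensional Brunn-Minkowski -/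

lemma bm_compact (A B C : Set ℝ) (hA : IsCompact A) (hB : IsCompact B) (hA0 : A.Nonempty)
    (hB0 : B.Nonempty) (hC : ∀ x ∈ A, ∀ y ∈ B, (1 / 2 : ℝ) • (x + y) ∈ C) :
    volume A + volume B ≤ 2 * volume C := by
  obtain ⟨k, hk, hk'⟩ := hA.exists_isGreatest hA0
  obtain ⟨l, hl, hl'⟩ := hB.exists_isLeast hB0
  set A' : Set ℝ := (fun x => (1 / 2 : ℝ) * x + l / 2) '' A with hA'
  set B' : Set ℝ := (fun x => (1 / 2 : ℝ) * x + k / 2) '' B with hB'
  have hA'm : volume A' = ENNReal.ofReal (1 / 2) * volume A := by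
    have h1 : A' = (fun x => x + l / 2) '' ((1 / 2 : ℝ) • A) := by
      rw [hA', ← Set.image_smul, Set.image_image]
      rfl
    rw [h1, Set.image_add_right, measure_preimage_add_right, Measure.addHaar_smul]
    simp
  have hB'm : volume B' = ENNReal.ofReal (1 / 2) * volume B := by
    have h1 : B' = (fun x => x + k / 2) '' ((1 / 2 : ℝ) • B) := by
      rw [hB', ← Set.image_smul, Set.image_image]
      rfl
    rw [h1, Set.image_add_right, measure_preimage_add_right, Measure.addHaar_smul]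
    simp
  have hsub : A' ∪ B' ⊆ C := by
    rintro z (⟨x, hx, rfl⟩ | ⟨x, hx, rfl⟩)
    · have := hC x hx l hl
      simp only [smul_eq_mul] at this
      show (1 / 2 : ℝ) * x + l / 2 ∈ C
      rw [show (1 / 2 : ℝ) * x + l / 2 = 1 / 2 * (x + l) by ring]
      exact this
    · have := hC k hk x hx
      simp only [smul_eq_mul] at this
      show (1 / 2 : ℝ) * x + k / 2 ∈ C
      rw [show (1 / 2 : ℝ) * x + k / 2 = 1 / 2 * (k + x) by ring]
      exact this
  have hinter : A' ∩ B' ⊆ {(k + l) / 2} := by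
    rintro z ⟨⟨x, hx, rfl⟩, ⟨y, hy, hxy⟩⟩
    have h1 : x ≤ k := hk' hx
    have h2 : l ≤ y := hl' hy
    simp only at hxy
    simp only [Set.mem_singleton_iff]
    linarith
  have hB'meas : MeasurableSet B' :=
    (hB.image (by fun_prop)).measurableSet
  have h0 : volume (A' ∩ B') = 0 := measure_mono_null hinter (by simp)
  have h3 := measure_union_add_inter A' hB'meas (μ := volume)
  rw [h0, add_zero, hA'm, hB'm, ← mul_add] at h3
  calc volume A + volume B = 2 * (ENNReal.ofReal (1 / 2) * (volume A + volume B)) := by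
        rw [← mul_assoc]
        have : (2 : ℝ≥0∞) * ENNReal.ofReal (1 / 2) = 1 := by
          rw [show (2 : ℝ≥0∞) = ENNReal.ofReal 2 by simp, ← ENNReal.ofReal_mul (by norm_num)]
          norm_num
        rw [this, one_mul]
    _ = 2 * volume (A' ∪ B') := by rw [h3]
    _ ≤ 2 * volume C := by gcongr

lemma bm_left (A B C : Set ℝ) (hA : MeasurableSet A) (hB : IsCompact B) (hA0 : A.Nonempty)
    (hB0 : B.Nonempty) (hC : ∀ x ∈ A, ∀ y ∈ B, (1 / 2 : ℝ) • (x + y) ∈ C) :
    volume A + volume B ≤ 2 * volume C := by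
  obtain ⟨a, ha⟩ := hA0
  have hBfin : volume B ≠ ∞ := hB.measure_ne_top
  have h1 : volume B ≤ 2 * volume C := by
    have := bm_compact {a} B C isCompact_singleton hB (Set.singleton_nonempty a) hB0
      (fun x hx y hy => hC x (by rw [Set.mem_singleton_iff.mp hx]; exact ha) y hy)
    simpa using this
  have h2 : volume A ≤ 2 * volume C - volume B := by
    rw [hA.measure_eq_iSup_isCompact]
    refine iSup_le fun K => iSup_le fun hK => iSup_le fun hKc => ?_
    rcases K.eq_empty_or_nonempty with rfl | hK0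
    · simp
    · exact ENNReal.le_sub_of_add_le_right hBfin
        (bm_compact K B C hKc hB hK0 hB0 (fun x hx y hy => hC x (hK hx) y hy))
  calc volume A + volume B ≤ (2 * volume C - volume B) + volume B := by gcongr
    _ = 2 * volume C := tsub_add_cancel_of_le h1

lemma bm_meas (A B C : Set ℝ) (hA : MeasurableSet A) (hB : MeasurableSet B) (hA0 : A.Nonempty)
    (hB0 : B.Nonempty) (hC : ∀ x ∈ A, ∀ y ∈ B, (1 / 2 : ℝ) • (x + y) ∈ C) :
    volume A + volume B ≤ 2 * volume C := by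
  obtain ⟨b, hb⟩ := hB0
  have h1 : volume A ≤ 2 * volume C := by
    have := bm_left A {b} C hA isCompact_singleton hA0 (Set.singleton_nonempty b)
      (fun x hx y hy => hC x hx y (by rw [Set.mem_singleton_iff.mp hy]; exact hb))
    simpa using this
  rcases eq_or_ne (volume A) ∞ with hAt | hAt
  · rw [hAt, top_le_iff] at h1
    rw [h1]; exact le_top
  have h2 : volume B ≤ 2 * volume C - volume A := by
    rw [hB.measure_eq_iSup_isCompact]
    refine iSup_le fun K => iSup_le fun hK => iSup_le fun hKc => ?_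
    rcases K.eq_empty_or_nonempty with rfl | hK0
    · simp
    · refine ENNReal.le_sub_of_add_le_right hAt ?_
      rw [add_comm]
      exact bm_left A K C hA hKc hA0 hK0 (fun x hx y hy => hC x hx y (hK hy))
  calc volume A + volume B ≤ volume A + (2 * volume C - volume A) := by gcongr
    _ = 2 * volume C := add_tsub_cancel_of_le h1

/-! ### One-dimensional Prékopa–Leindler -/

lemma pl_norm (f g h : ℝ → ℝ≥0∞) (hf : Measurable f) (hg : Measurable g) (hh : Measurable h)
    (H : ∀ x y, f x * g y ≤ h ((1 / 2 : ℝ) • (x + y)) ^ 2)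
    (hf1 : ∀ x, f x ≤ 1) (hg1 : ∀ x, g x ≤ 1) (hf2 : ∀ t < 1, ∃ x, t < f x)
    (hg2 : ∀ t < 1, ∃ x, t < g x) :
    (∫⁻ x, f x) + (∫⁻ x, g x) ≤ 2 * ∫⁻ x, h x := by
  have hmono : ∀ u : ℝ → ℝ≥0∞, Measurable fun t : ℝ => volume {x | ENNReal.ofReal t < u x} := by
    intro u
    refine Antitone.measurable fun s t hst => measure_mono fun x hx => ?_
    exact lt_of_le_of_lt (ENNReal.ofReal_le_ofReal hst) hx
  rw [layercake volume f hf, layercake volume g hg, layercake volume h hh,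
    ← lintegral_add_left (hmono f), ← lintegral_const_mul _ (hmono h)]
  refine setLIntegral_mono (Measurable.const_mul (hmono h) 2) fun t ht => ?_
  have ht0 : (0 : ℝ) < t := ht
  rcases lt_or_ge t 1 with ht1 | ht1
  · have ht1' : ENNReal.ofReal t < 1 := by
      rw [ENNReal.ofReal_lt_one]; exact ht1
    refine bm_meas _ _ _ (measurableSet_lt measurable_const hf)
      (measurableSet_lt measurable_const hg) (hf2 _ ht1') (hg2 _ ht1') fun x hx y hy => ?_
    have h1 : ENNReal.ofReal t * ENNReal.ofReal t < f x * g y := ENNReal.mul_lt_mul hx hy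
    have h2 := h1.trans_le (H x y)
    rw [← pow_two] at h2
    by_contra hcon
    exact absurd h2 (not_lt.mpr (pow_le_pow_left' (not_lt.mp hcon) 2))
  · have h1 : ∀ u : ℝ → ℝ≥0∞, (∀ x, u x ≤ 1) → volume {x | ENNReal.ofReal t < u x} = 0 := by
      intro u hu
      have : {x | ENNReal.ofReal t < u x} = ∅ := by
        ext x
        simp only [Set.mem_ofPred_eq, Set.mem_empty_iff_false, iff_false, not_lt]
        refine (hu x).trans ?_
        rw [ENNReal.one_le_ofReal]
        exact ht1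
      rw [this, measure_empty]
    show volume {x | ENNReal.ofReal t < f x} + volume {x | ENNReal.ofReal t < g x} ≤ _
    rw [h1 f hf1, h1 g hg1]
    simp

lemma amgm (F G K : ℝ≥0∞) (h : F + G ≤ 2 * K) : F * G ≤ K ^ 2 := by
  rcases eq_or_ne K ∞ with rfl | hK
  · simp
  have hF : F ≠ ∞ := by
    rintro rfl
    rw [top_add, top_le_iff] at h
    exact (ENNReal.mul_ne_top (by norm_num) hK) h
  have hG : G ≠ ∞ := by
    rintro rfl
    rw [add_top, top_le_iff] at h
    exact (ENNReal.mul_ne_top (by norm_num) hK) h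
  lift F to NNReal using hF
  lift G to NNReal using hG
  lift K to NNReal using hK
  have h' : F + G ≤ 2 * K := by exact_mod_cast h
  have h'' : F * G ≤ K ^ 2 := by
    have h1 : (F : ℝ) + G ≤ 2 * K := by exact_mod_cast h'
    have h2 : (F : ℝ) * G ≤ K ^ 2 := by
      nlinarith [sq_nonneg ((F : ℝ) - G), F.coe_nonneg, G.coe_nonneg, K.coe_nonneg]
    exact_mod_cast h2
  exact_mod_cast h''

lemma pl_bdd (f g h : ℝ → ℝ≥0∞) (hf : Measurable f) (hg : Measurable g) (hh : Measurable h)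
    (H : ∀ x y, f x * g y ≤ h ((1 / 2 : ℝ) • (x + y)) ^ 2)
    (hf1 : ⨆ x, f x ≠ ∞) (hg1 : ⨆ x, g x ≠ ∞) :
    (∫⁻ x, f x) * (∫⁻ x, g x) ≤ (∫⁻ x, h x) ^ 2 := by
  set a := ⨆ x, f x with ha
  set b := ⨆ x, g x with hb
  rcases eq_or_ne a 0 with ha0 | ha0
  · have : ∀ x, f x = 0 := fun x => le_antisymm (ha0 ▸ le_iSup f x) (by simp)
    simp [this]
  rcases eq_or_ne b 0 with hb0 | hb0
  · have : ∀ x, g x = 0 := fun x => le_antisymm (hb0 ▸ le_iSup g x) (by simp)
    simp [this]
  set c : ℝ≥0∞ := (a * b) ^ (1 / 2 : ℝ) with hc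
  have hc2 : c ^ 2 = a * b := by
    rw [hc, ← ENNReal.rpow_natCast, ← ENNReal.rpow_mul]
    norm_num
  have hab0 : a * b ≠ 0 := mul_ne_zero ha0 hb0
  have habt : a * b ≠ ∞ := ENNReal.mul_ne_top hf1 hg1
  have hc0 : c ≠ 0 := by
    intro h0
    rw [h0] at hc2
    exact hab0 (by rw [← hc2]; norm_num)
  have hct : c ≠ ∞ := by
    intro h0
    rw [h0] at hc2
    exact habt (by rw [← hc2]; norm_num)
  have key : (∫⁻ x, a⁻¹ * f x) + (∫⁻ x, b⁻¹ * g x) ≤ 2 * ∫⁻ x, c⁻¹ * h x := by
    refine pl_norm _ _ _ (hf.const_mul _) (hg.const_mul _) (hh.const_mul _) ?_ ?_ ?_ ?_ ?_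
    · intro x y
      calc a⁻¹ * f x * (b⁻¹ * g y) = (a * b)⁻¹ * (f x * g y) := by
            rw [ENNReal.mul_inv (Or.inl ha0) (Or.inl hf1)]; ring
        _ ≤ (a * b)⁻¹ * h ((1 / 2 : ℝ) • (x + y)) ^ 2 := by gcongr; exact H x y
        _ = (c⁻¹ * h ((1 / 2 : ℝ) • (x + y))) ^ 2 := by
            rw [mul_pow, ← hc2, ENNReal.inv_pow]
    · intro x
      calc a⁻¹ * f x ≤ a⁻¹ * a := by gcongr; exact le_iSup f x
        _ = 1 := ENNReal.inv_mul_cancel ha0 hf1
    · intro x
      calc b⁻¹ * g x ≤ b⁻¹ * b := by gcongr; exact le_iSup g x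
        _ = 1 := ENNReal.inv_mul_cancel hb0 hg1
    · intro t ht
      have h1 : a * t < a := by
        calc a * t < a * 1 := ENNReal.mul_lt_mul_right ha0 hf1 ht
          _ = a := mul_one a
      obtain ⟨x, hx⟩ := lt_iSup_iff.mp (ha ▸ h1)
      refine ⟨x, ?_⟩
      calc t = a⁻¹ * (a * t) := by rw [← mul_assoc, ENNReal.inv_mul_cancel ha0 hf1, one_mul]
        _ < a⁻¹ * f x := ENNReal.mul_lt_mul_right (ENNReal.inv_ne_zero.mpr hf1)
            (ENNReal.inv_ne_top.mpr ha0) hx
    · intro t ht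
      have h1 : b * t < b := by
        calc b * t < b * 1 := ENNReal.mul_lt_mul_right hb0 hg1 ht
          _ = b := mul_one b
      obtain ⟨x, hx⟩ := lt_iSup_iff.mp (hb ▸ h1)
      refine ⟨x, ?_⟩
      calc t = b⁻¹ * (b * t) := by rw [← mul_assoc, ENNReal.inv_mul_cancel hb0 hg1, one_mul]
        _ < b⁻¹ * g x := ENNReal.mul_lt_mul_right (ENNReal.inv_ne_zero.mpr hg1)
            (ENNReal.inv_ne_top.mpr hb0) hx
  rw [lintegral_const_mul _ hf, lintegral_const_mul _ hg, lintegral_const_mul _ hh] at key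
  have h2 := amgm _ _ _ key
  calc (∫⁻ x, f x) * (∫⁻ x, g x)
      = (a * b) * ((a⁻¹ * ∫⁻ x, f x) * (b⁻¹ * ∫⁻ x, g x)) := by
        rw [show (a * b) * ((a⁻¹ * ∫⁻ x, f x) * (b⁻¹ * ∫⁻ x, g x)) =
          (a * a⁻¹) * (b * b⁻¹) * ((∫⁻ x, f x) * ∫⁻ x, g x) by ring,
          ENNReal.mul_inv_cancel ha0 hf1, ENNReal.mul_inv_cancel hb0 hg1]
        simp
    _ ≤ (a * b) * (c⁻¹ * ∫⁻ x, h x) ^ 2 := by gcongr
    _ = (∫⁻ x, h x) ^ 2 := by
        rw [mul_pow, ← mul_assoc, ← hc2, ← ENNReal.inv_pow,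
          ENNReal.mul_inv_cancel (pow_ne_zero 2 hc0) (ENNReal.pow_ne_top hct), one_mul]

/-- The midpoint Prékopa–Leindler property of a measure space with a midpoint operation. -/
def PLProp (X : Type*) [MeasureSpace X] [AddCommGroup X] [Module ℝ X] : Prop :=
  ∀ f g h : X → ℝ≥0∞, Measurable f → Measurable g → Measurable h →
    (∀ x y, f x * g y ≤ h ((1 / 2 : ℝ) • (x + y)) ^ 2) →
    (∫⁻ x, f x) * (∫⁻ x, g x) ≤ (∫⁻ x, h x) ^ 2

lemma iSup_min_nat (a : ℝ≥0∞) : ⨆ n : ℕ, min a n = a := by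
  refine le_antisymm (iSup_le fun n => min_le_left _ _) ?_
  rcases eq_or_ne a ∞ with rfl | ha
  · simp only [min_top_left]
    rw [ENNReal.iSup_natCast]
  · obtain ⟨n, hn⟩ := ENNReal.exists_nat_gt ha
    exact le_iSup_of_le n (by rw [min_eq_left hn.le])

lemma lintegral_eq_iSup_min {X : Type*} [MeasurableSpace X] (μ : Measure X) (f : X → ℝ≥0∞)
    (hf : Measurable f) : ∫⁻ x, f x ∂μ = ⨆ n : ℕ, ∫⁻ x, min (f x) n ∂μ := by
  rw [← lintegral_iSup (fun n => hf.min measurable_const)]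
  · exact lintegral_congr fun x => (iSup_min_nat (f x)).symm
  · intro m n hmn x
    exact min_le_min_left _ (by exact_mod_cast hmn)

lemma pl_real : PLProp ℝ := by
  intro f g h hf hg hh H
  rw [lintegral_eq_iSup_min volume f hf, lintegral_eq_iSup_min volume g hg]
  have key : ∀ n : ℕ, (∫⁻ x, min (f x) n) * (∫⁻ x, min (g x) n) ≤ (∫⁻ x, h x) ^ 2 := by
    intro n
    refine pl_bdd _ _ h (hf.min measurable_const) (hg.min measurable_const) hh
      (fun x y => (mul_le_mul' (min_le_left _ _) (min_le_left _ _)).trans (H x y)) ?_ ?_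
    · exact ne_top_of_le_ne_top (ENNReal.natCast_ne_top n) (iSup_le fun x => min_le_right _ _)
    · exact ne_top_of_le_ne_top (ENNReal.natCast_ne_top n) (iSup_le fun x => min_le_right _ _)
  have hmono : ∀ u : ℝ → ℝ≥0∞, ∀ m n : ℕ, m ≤ n →
      ∫⁻ x, min (u x) (m : ℝ≥0∞) ≤ ∫⁻ x, min (u x) (n : ℝ≥0∞) := fun u m n hmn =>
    lintegral_mono fun x => min_le_min_left _ (by exact_mod_cast hmn)
  rw [ENNReal.iSup_mul]
  refine iSup_le fun m => ?_
  rw [ENNReal.mul_iSup]
  refine iSup_le fun n => ?_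
  calc (∫⁻ x, min (f x) (m : ℝ≥0∞)) * (∫⁻ x, min (g x) (n : ℝ≥0∞))
      ≤ (∫⁻ x, min (f x) ((max m n : ℕ) : ℝ≥0∞)) * (∫⁻ x, min (g x) ((max m n : ℕ) : ℝ≥0∞)) :=
        mul_le_mul' (hmono f _ _ (le_max_left _ _)) (hmono g _ _ (le_max_right _ _))
    _ ≤ _ := key _

lemma pl_prod {X Y : Type*} [MeasureSpace X] [AddCommGroup X] [Module ℝ X] [MeasureSpace Y]
    [AddCommGroup Y] [Module ℝ Y] [SFinite (volume : Measure X)] [SFinite (volume : Measure Y)]
    (hX : PLProp X) (hY : PLProp Y) : PLProp (X × Y) := by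
  intro f g h hf hg hh H
  rw [Measure.volume_eq_prod, lintegral_prod _ hf.aemeasurable, lintegral_prod _ hg.aemeasurable,
    lintegral_prod _ hh.aemeasurable]
  refine hX _ _ _ hf.lintegral_prod_right' hg.lintegral_prod_right' hh.lintegral_prod_right'
    fun s t => ?_
  refine hY _ _ _ (hf.comp measurable_prodMk_left) (hg.comp measurable_prodMk_left)
    (hh.comp measurable_prodMk_left) fun x y => ?_
  exact H (s, x) (t, y)

lemma pl_transport {X Y : Type*} [MeasureSpace X] [AddCommGroup X] [Module ℝ X] [MeasureSpace Y]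
    [AddCommGroup Y] [Module ℝ Y] (e : X ≃ᵐ Y) (he : MeasurePreserving e volume volume)
    (hmid : ∀ x y, e ((1 / 2 : ℝ) • (x + y)) = (1 / 2 : ℝ) • (e x + e y)) (hY : PLProp Y) :
    PLProp X := by
  intro f g h hf hg hh H
  have h1 : ∀ u : X → ℝ≥0∞, ∫⁻ x, u x = ∫⁻ y, u (e.symm y) := by
    intro u
    rw [← he.lintegral_comp_emb e.measurableEmbedding]
    simp
  rw [h1 f, h1 g, h1 h]
  refine hY _ _ _ (hf.comp e.symm.measurable) (hg.comp e.symm.measurable)
    (hh.comp e.symm.measurable) fun x y => ?_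
  have h2 : e.symm ((1 / 2 : ℝ) • (x + y)) = (1 / 2 : ℝ) • (e.symm x + e.symm y) := by
    apply e.injective
    rw [hmid]
    simp
  show f (e.symm x) * g (e.symm y) ≤ h (e.symm ((1 / 2 : ℝ) • (x + y))) ^ 2
  rw [h2]
  exact H _ _

lemma pl_pi (n : ℕ) : PLProp (Fin n → ℝ) := by
  induction n with
  | zero =>
    intro f g h hf hg hh H
    have hvol : (volume : Measure (Fin 0 → ℝ)) = Measure.dirac 0 := by
      rw [volume_pi, Measure.pi_of_empty (fun _ => (volume : Measure ℝ)) 0]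
    rw [hvol, lintegral_dirac' _ hf, lintegral_dirac' _ hg, lintegral_dirac' _ hh]
    have := H 0 0
    simpa using this
  | succ n ih =>
    refine pl_transport (MeasurableEquiv.piFinSuccAbove (fun _ => ℝ) 0)
      (volume_preserving_piFinSuccAbove (fun _ => ℝ) 0) ?_ (pl_prod pl_real ih)
    intro x y
    rfl

/-- Prékopa–Leindler inequality (midpoint version) in Euclidean space. -/
theorem prekopa_leindler {d : ℕ} (f g h : EuclideanSpace ℝ (Fin d) → ℝ≥0∞)
    (hf : Measurable f) (hg : Measurable g) (hh : Measurable h)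
    (H : ∀ x y, f x * g y ≤ h ((1 / 2 : ℝ) • (x + y)) ^ 2) :
    (∫⁻ x, f x) * (∫⁻ x, g x) ≤ (∫⁻ x, h x) ^ 2 :=
  pl_transport (MeasurableEquiv.toLp 2 (Fin d → ℝ)).symm
    (EuclideanSpace.volume_preserving_symm_measurableEquiv_toLp (Fin d)) (fun _ _ => rfl)
    (pl_pi d) f g h hf hg hh H

end P074
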